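import Vale.Agent.P092.H432.TA.Defs

/-!
# Projections in a commutant
-/

set_option autoImplicit false

namespace Vale.Agent.P092.H432.TA

open scoped InnerProductSpace
open ContinuousLinearMap

variable {H : Type*} [NormedAddCommGroup H] [InnerProductSpace ℂ H] [CompleteSpace H]

theorem Prj.apply_apply {e : H →L[ℂ] H} (he : Prj e) (ξ : H) : e (e ξ) = e ξ := by
  have := congrArg (fun T : H →L[ℂ] H => T ξ) he.idem
  simpa using this

theorem Prj.inner_left {e : H →L[ℂ] H} (he : Prj e) (ξ η : H) :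
    ⟪e ξ, η⟫_ℂ = ⟪ξ, e η⟫_ℂ := by
  have := adjoint_inner_left e η ξ
  rwa [he.adj] at this

theorem Prj.inner_eq {e : H →L[ℂ] H} (he : Prj e) (ξ : H) :
    ⟪e ξ, ξ⟫_ℂ = ((‖e ξ‖ ^ 2 : ℝ) : ℂ) := by
  have h : ⟪e ξ, ξ⟫_ℂ = ⟪e ξ, e ξ⟫_ℂ := by
    rw [(he.inner_left (e ξ) ξ).symm, he.apply_apply]
  rw [h, inner_self_eq_norm_sq_to_K]
  push_cast
  rfl

/-- a closed subspace gives a projection -/
theorem prj_starProjection (K : Submodule ℂ H) [K.HasOrthogonalProjection] :
    Prj K.starProjection := by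
  refine ⟨K.isIdempotentElem_starProjection, ?_⟩
  refine (ContinuousLinearMap.eq_adjoint_iff _ _).2 ?_ |>.symm
  intro x y
  exact K.inner_starProjection_left_eq_right x y

/-- the projection onto a subspace which is invariant under `w` and `w*` commutes with `w` -/
theorem comm_starProjection (K : Submodule ℂ H) [K.HasOrthogonalProjection] (w : H →L[ℂ] H)
    (h1 : ∀ ξ ∈ K, w ξ ∈ K) (h2 : ∀ ξ ∈ K, adjoint w ξ ∈ K) :
    w * K.starProjection = K.starProjection * w := by
  ext1 ξ
  change w (K.starProjection ξ) = K.starProjection (w ξ)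
  have h3 : w (ξ - K.starProjection ξ) ∈ Kᗮ := by
    rw [Submodule.mem_orthogonal]
    intro u hu
    rw [← adjoint_inner_left]
    exact Submodule.mem_orthogonal K _ |>.1 (K.sub_starProjection_mem_orthogonal ξ) _ (h2 u hu)
  have h4 : K.starProjection (w ξ) = w (K.starProjection ξ) := by
    refine K.eq_starProjection_of_mem_orthogonal (h1 _ (K.starProjection_apply_mem ξ)) ?_
    rw [← map_sub]
    exact h3
  exact h4.symm

/-- the projection onto the closure of the range of a self-adjoint operator commutes with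
everything that commutes with the operator (for operators closed under adjoints) -/
theorem comm_rangeProj (y w : H →L[ℂ] H) (h1 : w * y = y * w)
    (h2 : adjoint w * y = y * adjoint w) :
    w * (LinearMap.range (y : H →ₗ[ℂ] H)).topologicalClosure.starProjection =
      (LinearMap.range (y : H →ₗ[ℂ] H)).topologicalClosure.starProjection * w := by
  have key : ∀ v : H →L[ℂ] H, v * y = y * v →
      ∀ ξ ∈ (LinearMap.range (y : H →ₗ[ℂ] H)).topologicalClosure,
        v ξ ∈ (LinearMap.range (y : H →ₗ[ℂ] H)).topologicalClosure := by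
    intro v hv ξ hξ
    have h3 : Set.MapsTo v (LinearMap.range (y : H →ₗ[ℂ] H) : Set H)
        (LinearMap.range (y : H →ₗ[ℂ] H) : Set H) := by
      rintro _ ⟨η, rfl⟩
      refine ⟨v η, ?_⟩
      have := congrArg (fun T : H →L[ℂ] H => T η) hv
      exact this.symm
    exact map_mem_closure v.continuous hξ h3
  exact comm_starProjection _ w (key w h1) (key _ h2)

/-- positive and negative parts -/
theorem exists_pos_neg (d : H →L[ℂ] H) (hd : IsSelfAdjoint d) :
    ∃ P N : H →L[ℂ] H, P.IsPositive ∧ N.IsPositive ∧ P * N = 0 ∧ N * P = 0 ∧ d = P - N ∧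
      (∀ w, w * d = d * w → w * P = P * w) ∧ ∀ w, w * d = d * w → w * N = N * w := by
  refine ⟨d⁺, d⁻, (ContinuousLinearMap.nonneg_iff_isPositive _).1 (CFC.posPart_nonneg d),
    (ContinuousLinearMap.nonneg_iff_isPositive _).1 (CFC.negPart_nonneg d),
    CFC.posPart_mul_negPart d, CFC.negPart_mul_posPart d, (CFC.posPart_sub_negPart d hd).symm,
    ?_, ?_⟩
  · intro w hw
    have : Commute d w := hw.symm
    exact (this.cfcₙ_real _).symm
  · intro w hw
    have : Commute d w := hw.symm
    exact (this.cfcₙ_real _).symm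

/-- The spectral step: if every projection of the commutant of `X` under `e` is `0` or `e`, then
`e x e` is a scalar multiple of `e` for every selfadjoint `x` in the commutant. -/
theorem spec_real (X : Set (H →L[ℂ] H)) (hX : ∀ w ∈ X, adjoint w ∈ X) (e : H →L[ℂ] H)
    (he : Prj e)
    (hmin : ∀ q : H →L[ℂ] H, (∀ w ∈ X, w * q = q * w) → Prj q → e * q = q → q = 0 ∨ q = e)
    (a : H →L[ℂ] H) (ha : ∀ w ∈ X, w * a = a * w) (hsa : IsSelfAdjoint a)
    (hea : e * a = a) (hXe : ∀ w ∈ X, w * e = e * w) : ∃ c : ℝ, a = (c : ℂ) • e := by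
  have hae : a * e = a := by
    have := congrArg star hea
    rw [star_mul, hsa.star_eq] at this
    rwa [show star e = e from he.adj] at this
  -- the dichotomy
  have dich : ∀ c : ℝ, (∀ ξ, (⟪a ξ, ξ⟫_ℂ).re ≤ c * ‖e ξ‖ ^ 2) ∨
      (∀ ξ, c * ‖e ξ‖ ^ 2 ≤ (⟪a ξ, ξ⟫_ℂ).re) := by
    intro c
    have hsc : IsSelfAdjoint ((c : ℂ) • e) := by
      rw [IsSelfAdjoint, star_smul, show star e = e from he.adj]
      simp
    obtain ⟨P, N, hP, hN, hPN, hNP, hdec, hcP, hcN⟩ := exists_pos_neg _ (hsa.sub hsc)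
    have hdX : ∀ w ∈ X, w * (a - (c : ℂ) • e) = (a - (c : ℂ) • e) * w := by
      intro w hw
      rw [mul_sub, sub_mul, ha w hw, mul_smul_comm, smul_mul_assoc, hXe w hw]
    have hde : (P - N) * e = P - N := by
      rw [← hdec, sub_mul, hae, smul_mul_assoc, he.idem]
    have hq : ∀ ξ, (⟪(P - N) ξ, ξ⟫_ℂ).re = (⟪a ξ, ξ⟫_ℂ).re - c * ‖e ξ‖ ^ 2 := by
      intro ξ
      rw [← hdec, sub_apply, smul_apply, inner_sub_left, inner_smul_left, he.inner_eq,
        Complex.conj_ofReal, ← Complex.ofReal_mul, Complex.sub_re, Complex.ofReal_re]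
    have hPsa : star P = P := hP.isSelfAdjoint
    have hNsa : star N = N := hN.isSelfAdjoint
    have hPe : P * e = P := by
      have h5 : P * (1 - e) = 0 := by
        have h6 : (P - N) * (1 - e) = 0 := by rw [mul_sub, mul_one, hde, sub_self]
        have h7 : P * P * (1 - e) = 0 := by
          have h8 : P * (P - N) = P * P := by
            rw [mul_sub, hPN, sub_zero]
          rw [← h8, mul_assoc, h6, mul_zero]
        have h9 : star (P * (1 - e)) * (P * (1 - e)) = 0 := by
          rw [star_mul, hPsa, mul_assoc, ← mul_assoc P, h7, mul_zero]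
        exact CStarRing.star_mul_self_eq_zero_iff _ |>.1 h9
      rw [mul_sub, mul_one, sub_eq_zero] at h5
      exact h5.symm
    have hNe : N * e = N := by
      rw [sub_mul, hPe] at hde
      exact sub_right_injective hde
    have heP : e * P = P := by
      have := congrArg star hPe
      rw [star_mul, hPsa] at this
      rwa [show star e = e from he.adj] at this
    set K := (LinearMap.range (P : H →ₗ[ℂ] H)).topologicalClosure with hK
    have hq1 : ∀ w ∈ X, w * K.starProjection = K.starProjection * w := by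
      intro w hw
      exact comm_rangeProj _ w (hcP _ (hdX w hw)) (hcP _ (hdX _ (hX w hw)))
    have hq2 : e * K.starProjection = K.starProjection := by
      ext1 ξ
      change e (K.starProjection ξ) = K.starProjection ξ
      have h10 : ∀ η ∈ K, e η = η := by
        intro η hη
        have hcl : IsClosed {η : H | e η = η} := isClosed_eq e.continuous continuous_id
        have hsub : (LinearMap.range (P : H →ₗ[ℂ] H) : Set H) ⊆ {η : H | e η = η} := by
          rintro _ ⟨ζ, rfl⟩
          exact congrArg (fun T : H →L[ℂ] H => T ζ) heP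
        exact closure_minimal hsub hcl hη
      exact h10 _ (K.starProjection_apply_mem ξ)
    rcases hmin _ hq1 (prj_starProjection K) hq2 with h0 | h0
    · left
      have hP0 : P = 0 := by
        ext1 ξ
        have : P ξ ∈ K := by
          apply Submodule.le_topologicalClosure
          exact ⟨ξ, rfl⟩
        rw [← K.starProjection_eq_self_iff.2 this, h0]
        simp
      intro ξ
      have h12 : 0 ≤ (⟪N ξ, ξ⟫_ℂ).re := hN.re_inner_nonneg_left ξ
      have h13 := hq ξ
      rw [hP0, zero_sub, neg_apply, inner_neg_left, Complex.neg_re] at h13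
      linarith
    · right
      have hN0 : N = 0 := by
        rw [← hNe, ← h0]
        ext1 ξ
        change N (K.starProjection ξ) = 0
        have h10 : ∀ η ∈ K, N η = 0 := by
          intro η hη
          have hcl : IsClosed {η : H | N η = 0} :=
            isClosed_eq N.continuous continuous_const
          have hsub : (LinearMap.range (P : H →ₗ[ℂ] H) : Set H) ⊆ {η : H | N η = 0} := by
            rintro _ ⟨ζ, rfl⟩
            exact congrArg (fun T : H →L[ℂ] H => T ζ) hNP
          exact closure_minimal hsub hcl hη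
        exact h10 _ (K.starProjection_apply_mem ξ)
      intro ξ
      have h12 : 0 ≤ (⟪P ξ, ξ⟫_ℂ).re := hP.re_inner_nonneg_left ξ
      have h13 := hq ξ
      rw [hN0, sub_zero] at h13
      linarith
  by_cases hne : e = 0
  · refine ⟨0, ?_⟩
    rw [← hea, hne]; simp
  -- the supremum of the lower bounds
  set T : Set ℝ := {c | ∀ ξ, c * ‖e ξ‖ ^ 2 ≤ (⟪a ξ, ξ⟫_ℂ).re} with hT
  obtain ⟨ξ₀, hξ₀⟩ : ∃ ξ, e ξ ≠ 0 := by
    by_contra hcon
    push Not at hcon
    exact hne (ContinuousLinearMap.ext fun ξ => by simpa using hcon ξ)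
  have haeq : ∀ ξ, ⟪a ξ, ξ⟫_ℂ = ⟪a (e ξ), e ξ⟫_ℂ := by
    intro ξ
    have h1 : a (e ξ) = a ξ := congrArg (fun T : H →L[ℂ] H => T ξ) hae
    rw [h1, ← he.inner_left]
    have h2 : e (a ξ) = a ξ := congrArg (fun T : H →L[ℂ] H => T ξ) hea
    rw [h2]
  have hbd : ∀ ξ, |(⟪a ξ, ξ⟫_ℂ).re| ≤ ‖a‖ * ‖e ξ‖ ^ 2 := by
    intro ξ
    rw [haeq]
    calc |(⟪a (e ξ), e ξ⟫_ℂ).re| ≤ ‖⟪a (e ξ), e ξ⟫_ℂ‖ := Complex.abs_re_le_norm _
      _ ≤ ‖a (e ξ)‖ * ‖e ξ‖ := norm_inner_le_norm _ _
      _ ≤ ‖a‖ * ‖e ξ‖ * ‖e ξ‖ := by gcongr; exact a.le_opNorm _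
      _ = ‖a‖ * ‖e ξ‖ ^ 2 := by ring
  have hTne : T.Nonempty := ⟨-‖a‖, fun ξ => by
    have := (abs_le.1 (hbd ξ)).1
    linarith⟩
  have hTbd : BddAbove T := ⟨‖a‖, fun c hc => by
    have h1 := hc ξ₀
    have h2 := (abs_le.1 (hbd ξ₀)).2
    have h3 : 0 < ‖e ξ₀‖ ^ 2 := by positivity
    exact le_of_mul_le_mul_right (h1.trans h2) h3⟩
  have hlo : ∀ ξ, sSup T * ‖e ξ‖ ^ 2 ≤ (⟪a ξ, ξ⟫_ℂ).re := by
    intro ξ
    by_cases h0 : e ξ = 0
    · have := (abs_le.1 (hbd ξ)).1
      rw [h0] at this ⊢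
      simpa using this
    · have h3 : 0 < ‖e ξ‖ ^ 2 := by positivity
      rw [← le_div_iff₀ h3]
      refine csSup_le hTne fun c hc => ?_
      rw [le_div_iff₀ h3]
      exact hc ξ
  have hhi : ∀ ξ, (⟪a ξ, ξ⟫_ℂ).re ≤ sSup T * ‖e ξ‖ ^ 2 := by
    intro ξ
    by_cases h0 : e ξ = 0
    · have := (abs_le.1 (hbd ξ)).2
      rw [h0] at this ⊢
      simpa using this
    · have h3 : 0 < ‖e ξ‖ ^ 2 := by positivity
      rw [← div_le_iff₀ h3]
      refine le_of_forall_gt_imp_ge_of_dense fun c hc => ?_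
      have hcT : c ∉ T := fun h => absurd (le_csSup hTbd h) (not_le.2 hc)
      rcases dich c with h | h
      · rw [div_le_iff₀ h3]
        exact h ξ
      · exact absurd h hcT
  refine ⟨sSup T, ?_⟩
  have hsc : IsSelfAdjoint (((sSup T : ℝ) : ℂ) • e) := by
    rw [IsSelfAdjoint, star_smul, show star e = e from he.adj]
    simp
  have hz : a - ((sSup T : ℝ) : ℂ) • e = 0 := by
    have hsym : IsSelfAdjoint (a - ((sSup T : ℝ) : ℂ) • e) := hsa.sub hsc
    have h1 : ∀ ξ, ⟪(a - ((sSup T : ℝ) : ℂ) • e) ξ, ξ⟫_ℂ = 0 := by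
      intro ξ
      have hre : (⟪(a - ((sSup T : ℝ) : ℂ) • e) ξ, ξ⟫_ℂ).re = 0 := by
        rw [sub_apply, smul_apply, inner_sub_left, inner_smul_left, he.inner_eq,
          Complex.conj_ofReal, ← Complex.ofReal_mul, Complex.sub_re, Complex.ofReal_re]
        linarith [hlo ξ, hhi ξ]
      have him : (⟪(a - ((sSup T : ℝ) : ℂ) • e) ξ, ξ⟫_ℂ).im = 0 := by
        have h2 : (starRingEnd ℂ) ⟪(a - ((sSup T : ℝ) : ℂ) • e) ξ, ξ⟫_ℂ =
            ⟪(a - ((sSup T : ℝ) : ℂ) • e) ξ, ξ⟫_ℂ := by
          rw [inner_conj_symm, ← adjoint_inner_left]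
          rw [show adjoint (a - ((sSup T : ℝ) : ℂ) • e) = a - ((sSup T : ℝ) : ℂ) • e from hsym]
        exact Complex.conj_eq_iff_im.1 h2
      exact Complex.ext hre him
    ext1 ξ
    rw [zero_apply]
    have := (inner_map_self_eq_zero
      ((a - ((sSup T : ℝ) : ℂ) • e : H →L[ℂ] H) : H →ₗ[ℂ] H)).1 h1
    exact congrArg (fun T : H →ₗ[ℂ] H => T ξ) this
  exact sub_eq_zero.1 hz

/-- SPEC: if every projection of the commutant of `X` under `e` is `0` or `e`, then
`e x e` is a scalar multiple of `e` for every `x` in the commutant. -/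
theorem spec (X : Set (H →L[ℂ] H)) (hX : ∀ w ∈ X, adjoint w ∈ X) (e : H →L[ℂ] H)
    (he : Prj e) (hXe : ∀ w ∈ X, w * e = e * w)
    (hmin : ∀ q : H →L[ℂ] H, (∀ w ∈ X, w * q = q * w) → Prj q → e * q = q → q = 0 ∨ q = e)
    (x : H →L[ℂ] H) (hx : ∀ w ∈ X, w * x = x * w) : ∃ c : ℂ, e * x * e = c • e := by
  have hxs : ∀ w ∈ X, w * adjoint x = adjoint x * w := by
    intro w hw
    have h1 := congrArg star (hx _ (hX w hw))
    rw [star_mul, star_mul] at h1
    have h2 : star (adjoint w) = w := adjoint_adjoint w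
    rw [h2] at h1
    exact h1.symm
  have hes : star e = e := he.adj
  have hsx : star (e * x * e) = e * adjoint x * e := by
    rw [star_mul, star_mul, hes, mul_assoc]; rfl
  have hsx' : star (e * adjoint x * e) = e * x * e := by
    rw [← hsx, star_star]
  have hc1 : ∀ w ∈ X, w * (e * x * e) = e * x * e * w := by
    intro w hw
    rw [← mul_assoc, ← mul_assoc, hXe w hw, mul_assoc e w x, hx w hw, ← mul_assoc,
      mul_assoc (e * x) w e, hXe w hw, ← mul_assoc]
  have hc2 : ∀ w ∈ X, w * (e * adjoint x * e) = e * adjoint x * e * w := by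
    intro w hw
    rw [← mul_assoc, ← mul_assoc, hXe w hw, mul_assoc e w, hxs w hw, ← mul_assoc,
      mul_assoc (e * adjoint x) w e, hXe w hw, ← mul_assoc]
  have he1 : e * (e * x * e) = e * x * e := by
    rw [← mul_assoc, ← mul_assoc, he.idem]
  have he2 : e * (e * adjoint x * e) = e * adjoint x * e := by
    rw [← mul_assoc, ← mul_assoc, he.idem]
  obtain ⟨c1, h1⟩ := spec_real X hX e he hmin (e * x * e + e * adjoint x * e)
    (fun w hw => by rw [mul_add, add_mul, hc1 w hw, hc2 w hw])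
    (by rw [IsSelfAdjoint, star_add, hsx, hsx', add_comm])
    (by rw [mul_add, he1, he2]) hXe
  obtain ⟨c2, h2⟩ := spec_real X hX e he hmin (Complex.I • (e * x * e - e * adjoint x * e))
    (fun w hw => by
      rw [mul_smul_comm, smul_mul_assoc, mul_sub, sub_mul, hc1 w hw, hc2 w hw])
    (by
      rw [IsSelfAdjoint, star_smul, star_sub, hsx, hsx', Complex.star_def, Complex.conj_I,
        neg_smul, ← smul_neg, neg_sub])
    (by rw [mul_smul_comm, mul_sub, he1, he2]) hXe
  refine ⟨(c1 - Complex.I * c2) / 2, ?_⟩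
  have h3 : (e * x * e - e * adjoint x * e) = (-Complex.I * c2) • e := by
    have := congrArg (fun T => (-Complex.I) • T) h2
    simp only [smul_smul] at this
    rw [neg_mul, Complex.I_mul_I, neg_neg, one_smul] at this
    exact this
  have h4 : (2 : ℂ) • (e * x * e) = (c1 - Complex.I * c2) • e := by
    have h5 : (2 : ℂ) • (e * x * e) =
        (e * x * e + e * adjoint x * e) + (e * x * e - e * adjoint x * e) := by
      rw [two_smul]; abel
    rw [h5, h1, h3, ← add_smul]
    congr 1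
    ring
  have h6 : e * x * e = (2 : ℂ)⁻¹ • ((2 : ℂ) • (e * x * e)) := by
    rw [smul_smul, inv_mul_cancel₀ (by norm_num), one_smul]
  rw [h6, h4, smul_smul]
  congr 1
  ring

end Vale.Agent.P092.H432.TA
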