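import Vale.Agent.P092.H432.TA.Fin
import Vale.Agent.P092.H200.TA3
import Vale.Agent.P092.H729.TA2

/-!
# Central atoms at every target level
-/

set_option autoImplicit false
set_option linter.all false

namespace Vale.Agent.P092.H432.TA

open scoped InnerProductSpace
open ContinuousLinearMap

variable {H : Type*} [NormedAddCommGroup H] [InnerProductSpace ℂ H] [CompleteSpace H]
variable {A B : Type*} [Group A] [Group B]
variable {S : A →* (H →L[ℂ] H)} {R : B →* (H →L[ℂ] H)} {W : Set (H →L[ℂ] H)}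
variable {cA : Set (Subgroup A)} {cB : Set (Subgroup B)}

theorem MinP.corner_levels (h : Sys S R W) (hA : GIn cA) (hB : GIn cB) (hE : Erg S R W cA cB)
    {V : Subgroup B} (hV : V ∈ cB) {e : H →L[ℂ] H} (he : MinP S R W cA V e) (hr : RFin R V e) :
    ∀ V1 ∈ cB, V1 ≤ V → ∃ U' ∈ cA, ∀ x ∈ QV S R W cA V1, e * x * e ∈ Q S R W U' V1 := by
  intro V1 hV1 hle
  obtain ⟨U, hU, heQ⟩ := he.mem
  have hr1 : RFin R V1 e := rfin_level (H729.norm_S (H729.sys_swap h)) heQ.2.1 hle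
    (hB.g0 V1 hV1 V hV) hr
  obtain ⟨U', hU', -, h2⟩ := corner_level h hA hE.E1
    (⟨U, hU, H729.Q_mono le_rfl hle heQ⟩ : e ∈ QV S R W cA V1) he.prj hr1
  exact ⟨U', hU', h2⟩

/-- **(1) + (2)**: the cover of an `R`-finite minimal projection is a central atom whose source
stabiliser lies in `cA`. -/
theorem exists_catom_cov (h : Sys S R W) (hA : GIn cA) (hB : GIn cB) (hE : Erg S R W cA cB)
    {V : Subgroup B} (hV : V ∈ cB) {e : H →L[ℂ] H} (he : MinP S R W cA V e) (hr : RFin R V e) :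
    ∃ U, CAtom S R W cA V U (H729.cov (QV S R W cA V) e) := by
  refine H729.catom_of_min h hA (hE.E2 V hV) he hr fun hcon => ?_
  obtain ⟨U, hU, heQ⟩ := he.mem
  have hz := H729.cover_mem h hA heQ
  have hzT : H729.cov (QV S R W cA V) e ∈ Q S R W ⊤ V :=
    ⟨fun a _ => H729.cj_eq_iff.1 (hcon a), hz.2.1, hz.2.2⟩
  obtain ⟨c, hc⟩ := hE.E2 V hV _ hzT
  have hne : H729.cov (QV S R W cA V) e ≠ 0 := by
    intro h0
    have h1 := H729.cov_mul (X := QV S R W cA V) (e := e) (QV_one hA)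
    rw [h0, zero_mul, one_mul] at h1
    exact he.ne h1.symm
  have h1 := H200.TA3.ta3 hA hB h hE hV he hr (MinP.corner_levels h hA hB hE hV he hr)
  apply h1
  have hp : Prj (H729.cov (QV S R W cA V) e) := H729.cov_prj
  have h2 := hp.idem
  rw [hc] at h2 hne ⊢
  rw [smul_mul_smul_comm, mul_one] at h2
  have h3 : (c * c - c) • (1 : H →L[ℂ] H) = 0 := by rw [sub_smul, h2, sub_self]
  have h4 : (1 : H →L[ℂ] H) ≠ 0 := fun h0 => hne (by rw [h0, smul_zero])
  have h5 : c * c - c = 0 := (smul_eq_zero.1 h3).resolve_right h4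
  have h6 : c ≠ 0 := fun h0 => hne (by rw [h0, zero_smul])
  have h7 : c * (c - 1) = 0 := by linear_combination h5
  have h8 : c = 1 := sub_eq_zero.1 ((mul_eq_zero.1 h7).resolve_left h6)
  rw [h8, one_smul]

/-- minimal projections at every smaller target level -/
theorem exists_minP_level (h : Sys S R W) (hA : GIn cA) (hB : GIn cB) (hE : Erg S R W cA cB)
    {U₀ : Subgroup A} (hU₀ : U₀ ∈ cA) {V₀ : Subgroup B} (hV₀ : V₀ ∈ cB) {p : H →L[ℂ] H}
    (hp : p ∈ Q S R W U₀ V₀) (hpp : Prj p) (hp0 : p ≠ 0) (hr : RFin R V₀ p) :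
    ∀ V ∈ cB, V ≤ V₀ → ∃ e, MinP S R W cA V e ∧ RFin R V e := by
  intro V hV hle
  have hr1 : RFin R V p := rfin_level (H729.norm_S (H729.sys_swap h)) hp.2.1 hle
    (hB.g0 V hV V₀ hV₀) hr
  obtain ⟨e, he, -, hre⟩ := exists_minP h hA hE.E1
    (⟨U₀, hU₀, H729.Q_mono le_rfl hle hp⟩ : p ∈ QV S R W cA V) hpp hp0 hr1
  exact ⟨e, he, hre⟩

/-- central atoms at every smaller target level -/
theorem exists_catom (h : Sys S R W) (hA : GIn cA) (hB : GIn cB) (hE : Erg S R W cA cB)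
    {U₀ : Subgroup A} (hU₀ : U₀ ∈ cA) {V₀ : Subgroup B} (hV₀ : V₀ ∈ cB) {p : H →L[ℂ] H}
    (hp : p ∈ Q S R W U₀ V₀) (hpp : Prj p) (hp0 : p ≠ 0) (hr : RFin R V₀ p) :
    ∀ V ∈ cB, V ≤ V₀ → ∃ U z, CAtom S R W cA V U z := by
  intro V hV hle
  obtain ⟨e, he, hre⟩ := exists_minP_level h hA hB hE hU₀ hV₀ hp hpp hp0 hr V hV hle
  obtain ⟨U, hU⟩ := exists_catom_cov h hA hB hE hV he hre
  exact ⟨U, _, hU⟩

end Vale.Agent.P092.H432.TA
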