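import Mathlib

/-!
# Theorem A of Project B: the letters

`S : A → U(H)` (source action), `R : B → U(H)` (target action), `W` a self-adjoint set of
operators, all commuting.  `Q U V` is the commutant of `S U`, `R V` and `W`.
-/

set_option autoImplicit false

namespace Vale.Agent.P092.H432.TA

open scoped InnerProductSpace

/-- Group input: a group `A` with a family `cA` of subgroups (the traces on a dense subgroup of the
compact open subgroups of a simple totally disconnected group). -/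
structure GIn {A : Type*} [Group A] (cA : Set (Subgroup A)) : Prop where
  ne : cA.Nonempty
  inf : ∀ U ∈ cA, ∀ V ∈ cA, U ⊓ V ∈ cA
  conj : ∀ U ∈ cA, ∀ a : A, ∃ V ∈ cA, ∀ x, x ∈ V ↔ a⁻¹ * x * a ∈ U
  g0 : ∀ U ∈ cA, ∀ V ∈ cA, U.relIndex V ≠ 0
  g1 : ∀ L : Subgroup A, (∃ U ∈ cA, U ≤ L) → L ∈ cA ∨ L = ⊤
  g2 : ∀ N : Subgroup A, N.Normal → (∃ U ∈ cA, U ≤ N) → N = ⊤
  top : ⊤ ∉ cA
  inf_index : ∀ U ∈ cA, U.index = 0
  g3 : ∀ f : ℕ → Subgroup A, Monotone f → (∀ j, f j ∈ cA) → ∃ m, ∀ j, m ≤ j → f j = f m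
  g5 : ∀ U ∈ cA, ∀ U' ∈ cA, ∃ s : Finset A, ∀ x, (∀ h ∈ s, h⁻¹ * x * h ∈ U) → x ∈ U'
  seq : ∀ U ∈ cA, ∃ f : ℕ → Subgroup A, f 0 = U ∧ Antitone f ∧ (∀ j, f j ∈ cA) ∧
    (∀ j, ∀ a ∈ U, ∀ x ∈ f j, a * x * a⁻¹ ∈ f j) ∧ ∀ V ∈ cA, ∃ j, f j ≤ V

variable {H : Type*} [NormedAddCommGroup H] [InnerProductSpace ℂ H] [CompleteSpace H]
variable {A B : Type*} [Group A] [Group B]

/-- Two commuting unitary representations and a self-adjoint set of operators, all commuting. -/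
structure Sys (S : A →* (H →L[ℂ] H)) (R : B →* (H →L[ℂ] H)) (W : Set (H →L[ℂ] H)) : Prop where
  Sadj : ∀ a, ContinuousLinearMap.adjoint (S a) = S a⁻¹
  Radj : ∀ b, ContinuousLinearMap.adjoint (R b) = R b⁻¹
  SR : ∀ a b, S a * R b = R b * S a
  WS : ∀ w ∈ W, ∀ a, w * S a = S a * w
  WR : ∀ w ∈ W, ∀ b, w * R b = R b * w
  Wadj : ∀ w ∈ W, ContinuousLinearMap.adjoint w ∈ W

/-- The commutant of `S U`, `R V` and `W`. -/
def Q (S : A →* (H →L[ℂ] H)) (R : B →* (H →L[ℂ] H)) (W : Set (H →L[ℂ] H))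
    (U : Subgroup A) (V : Subgroup B) : Set (H →L[ℂ] H) :=
  {x | (∀ a ∈ U, S a * x = x * S a) ∧ (∀ b ∈ V, R b * x = x * R b) ∧ ∀ w ∈ W, w * x = x * w}

/-- `𝒬^V`: the union over the source levels. -/
def QV (S : A →* (H →L[ℂ] H)) (R : B →* (H →L[ℂ] H)) (W : Set (H →L[ℂ] H))
    (cA : Set (Subgroup A)) (V : Subgroup B) : Set (H →L[ℂ] H) :=
  {x | ∃ U ∈ cA, x ∈ Q S R W U V}

/-- `𝒬`: the union over all levels. -/
def QQ (S : A →* (H →L[ℂ] H)) (R : B →* (H →L[ℂ] H)) (W : Set (H →L[ℂ] H))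
    (cA : Set (Subgroup A)) (cB : Set (Subgroup B)) : Set (H →L[ℂ] H) :=
  {x | ∃ U ∈ cA, ∃ V ∈ cB, x ∈ Q S R W U V}

/-- The two ergodicity hypotheses. -/
structure Erg (S : A →* (H →L[ℂ] H)) (R : B →* (H →L[ℂ] H)) (W : Set (H →L[ℂ] H))
    (cA : Set (Subgroup A)) (cB : Set (Subgroup B)) : Prop where
  E1 : ∀ U ∈ cA, ∀ x ∈ Q S R W U ⊤, ∃ c : ℂ, x = c • (1 : H →L[ℂ] H)
  E2 : ∀ V ∈ cB, ∀ x ∈ Q S R W ⊤ V, ∃ c : ℂ, x = c • (1 : H →L[ℂ] H)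

/-- Orthogonal projections. -/
structure Prj (e : H →L[ℂ] H) : Prop where
  idem : e * e = e
  adj : ContinuousLinearMap.adjoint e = e

/-- `Σ_{B/V} R_q e* e R_q*` is bounded. -/
def RFin (R : B →* (H →L[ℂ] H)) (V : Subgroup B) (e : H →L[ℂ] H) : Prop :=
  ∃ C : ℝ, ∀ (F : Finset (B ⧸ V)) (ξ : H), ∑ q ∈ F, ‖e (R q.out⁻¹ ξ)‖ ^ 2 ≤ C * ‖ξ‖ ^ 2

/-- `e` is minimal in `𝒬^V`. -/
structure MinP (S : A →* (H →L[ℂ] H)) (R : B →* (H →L[ℂ] H)) (W : Set (H →L[ℂ] H))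
    (cA : Set (Subgroup A)) (V : Subgroup B) (e : H →L[ℂ] H) : Prop where
  mem : e ∈ QV S R W cA V
  prj : Prj e
  ne : e ≠ 0
  min : ∀ x ∈ QV S R W cA V, ∃ c : ℂ, e * x * e = c • e

/-- A central atom of `𝒬^V` with source stabiliser `U ∈ cA`. -/
structure CAtom (S : A →* (H →L[ℂ] H)) (R : B →* (H →L[ℂ] H)) (W : Set (H →L[ℂ] H))
    (cA : Set (Subgroup A)) (V : Subgroup B) (U : Subgroup A) (z : H →L[ℂ] H) : Prop where
  U_mem : U ∈ cA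
  mem : z ∈ Q S R W U V
  prj : Prj z
  ne : z ≠ 0
  comm : ∀ x ∈ QV S R W cA V, x * z = z * x
  atom : ∀ c ∈ QV S R W cA V, Prj c → (∀ x ∈ QV S R W cA V, x * c = c * x) →
    c * z = z ∨ c * z = 0
  sep : ∀ a, a ∉ U → z * (S a * z * S a⁻¹) = 0
  rfin : RFin R V z

/-- A box: the output of Theorem A. -/
structure Box (S : A →* (H →L[ℂ] H)) (R : B →* (H →L[ℂ] H)) (W : Set (H →L[ℂ] H))
    (cA : Set (Subgroup A)) (cB : Set (Subgroup B)) (U : Subgroup A) (V : Subgroup B)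
    (z : H →L[ℂ] H) : Prop where
  U_mem : U ∈ cA
  V_mem : V ∈ cB
  mem : z ∈ Q S R W U V
  prj : Prj z
  ne : z ≠ 0
  comm : ∀ x ∈ QQ S R W cA cB, x * z = z * x
  sepS : ∀ a, a ∉ U → z * (S a * z * S a⁻¹) = 0
  sepR : ∀ b, b ∉ V → z * (R b * z * R b⁻¹) = 0
  minS : ∀ V' ∈ cB, ∀ x ∈ Q S R W U V', ∃ c : ℂ, z * x * z = c • z
  minR : ∀ U' ∈ cA, ∀ x ∈ Q S R W U' V, ∃ c : ℂ, z * x * z = c • z

end Vale.Agent.P092.H432.TA
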