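import Vale.Agent.P092.H432.TA.Spec
import Vale.Agent.P092.H729.TAB
import Vale.Agent.P092.H361.TA0

/-!
# Minimal projections of `𝒬^V` and finite dimensional corners
-/

set_option autoImplicit false

namespace Vale.Agent.P092.H432.TA

open scoped InnerProductSpace
open ContinuousLinearMap

variable {H : Type*} [NormedAddCommGroup H] [InnerProductSpace ℂ H] [CompleteSpace H]
variable {A B : Type*} [Group A] [Group B]
variable {S : A →* (H →L[ℂ] H)} {R : B →* (H →L[ℂ] H)} {W : Set (H →L[ℂ] H)}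
variable {cA : Set (Subgroup A)} {cB : Set (Subgroup B)}

/-- the operators whose commutant is `Q U V` -/
def QX (S : A →* (H →L[ℂ] H)) (R : B →* (H →L[ℂ] H)) (W : Set (H →L[ℂ] H))
    (U : Subgroup A) (V : Subgroup B) : Set (H →L[ℂ] H) :=
  {w | (∃ a ∈ U, w = S a) ∨ (∃ b ∈ V, w = R b) ∨ w ∈ W}

omit [CompleteSpace H] in
theorem mem_Q_iff {U : Subgroup A} {V : Subgroup B} {x : H →L[ℂ] H} :
    x ∈ Q S R W U V ↔ ∀ w ∈ QX S R W U V, w * x = x * w := by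
  constructor
  · rintro ⟨h1, h2, h3⟩ w (⟨a, ha, rfl⟩ | ⟨b, hb, rfl⟩ | hw)
    · exact h1 a ha
    · exact h2 b hb
    · exact h3 w hw
  · intro h
    exact ⟨fun a ha => h _ (Or.inl ⟨a, ha, rfl⟩), fun b hb => h _ (Or.inr (Or.inl ⟨b, hb, rfl⟩)),
      fun w hw => h _ (Or.inr (Or.inr hw))⟩

theorem QX_adj (h : Sys S R W) {U : Subgroup A} {V : Subgroup B} :
    ∀ w ∈ QX S R W U V, adjoint w ∈ QX S R W U V := by
  rintro w (⟨a, ha, rfl⟩ | ⟨b, hb, rfl⟩ | hw)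
  · exact Or.inl ⟨a⁻¹, U.inv_mem ha, h.Sadj a⟩
  · exact Or.inr (Or.inl ⟨b⁻¹, V.inv_mem hb, h.Radj b⟩)
  · exact Or.inr (Or.inr (h.Wadj w hw))

/-- SPEC inside `Q U V` -/
theorem spec_Q (h : Sys S R W) {U : Subgroup A} {V : Subgroup B} {e : H →L[ℂ] H} (he : Prj e)
    (heQ : e ∈ Q S R W U V)
    (hmin : ∀ q ∈ Q S R W U V, Prj q → e * q = q → q = 0 ∨ q = e) :
    ∀ x ∈ Q S R W U V, ∃ c : ℂ, e * x * e = c • e := by
  intro x hx
  exact spec (QX S R W U V) (QX_adj h) e he (mem_Q_iff.1 heQ)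
    (fun q h1 h2 h3 => hmin q (mem_Q_iff.2 h1) h2 h3) x (mem_Q_iff.1 hx)

theorem QV_common (hA : GIn cA) {V : Subgroup B} {x y : H →L[ℂ] H} (hx : x ∈ QV S R W cA V)
    (hy : y ∈ QV S R W cA V) : ∃ U ∈ cA, x ∈ Q S R W U V ∧ y ∈ Q S R W U V := by
  obtain ⟨U1, h1, h2⟩ := hx
  obtain ⟨U2, h3, h4⟩ := hy
  exact ⟨U1 ⊓ U2, hA.inf _ h1 _ h3, H729.Q_mono inf_le_left le_rfl h2,
    H729.Q_mono inf_le_right le_rfl h4⟩

theorem QV_mul (hA : GIn cA) {V : Subgroup B} {x y : H →L[ℂ] H} (hx : x ∈ QV S R W cA V)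
    (hy : y ∈ QV S R W cA V) : x * y ∈ QV S R W cA V := by
  obtain ⟨U, hU, h1, h2⟩ := QV_common hA hx hy
  exact ⟨U, hU, H729.Q_mul h1 h2⟩

theorem QV_sub (hA : GIn cA) {V : Subgroup B} {x y : H →L[ℂ] H} (hx : x ∈ QV S R W cA V)
    (hy : y ∈ QV S R W cA V) : x - y ∈ QV S R W cA V := by
  obtain ⟨U, hU, h1, h2⟩ := QV_common hA hx hy
  exact ⟨U, hU, H729.Q_sub h1 h2⟩

theorem QV_add (hA : GIn cA) {V : Subgroup B} {x y : H →L[ℂ] H} (hx : x ∈ QV S R W cA V)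
    (hy : y ∈ QV S R W cA V) : x + y ∈ QV S R W cA V := by
  obtain ⟨U, hU, h1, h2⟩ := QV_common hA hx hy
  exact ⟨U, hU, H729.Q_add h1 h2⟩

theorem QV_adj (h : Sys S R W) {V : Subgroup B} {x : H →L[ℂ] H} (hx : x ∈ QV S R W cA V) :
    adjoint x ∈ QV S R W cA V := by
  obtain ⟨U, hU, h1⟩ := hx
  exact ⟨U, hU, H729.Q_star h h1⟩

theorem QV_zero (hA : GIn cA) {V : Subgroup B} : (0 : H →L[ℂ] H) ∈ QV S R W cA V := by
  obtain ⟨U, hU⟩ := hA.ne
  exact ⟨U, hU, H729.Q_zero⟩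

theorem QV_one (hA : GIn cA) {V : Subgroup B} : (1 : H →L[ℂ] H) ∈ QV S R W cA V := by
  obtain ⟨U, hU⟩ := hA.ne
  exact ⟨U, hU, H729.Q_one⟩

/-! ### projections -/

theorem Prj.sub {p q : H →L[ℂ] H} (hp : Prj p) (hq : Prj q) (h : p * q = q) : Prj (p - q) := by
  have h2 : q * p = q := by
    have := congrArg star h
    rw [star_mul, show star q = q from hq.adj, show star p = p from hp.adj] at this
    exact this
  refine ⟨?_, ?_⟩
  · rw [sub_mul, mul_sub, mul_sub, hp.idem, hq.idem, h, h2, sub_self, sub_zero]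
  · rw [map_sub, hp.adj, hq.adj]

theorem Prj.norm_le {e : H →L[ℂ] H} (he : Prj e) (ξ : H) : ‖e ξ‖ ≤ ‖ξ‖ :=
  H729.norm_proj_le (H729.isp he) ξ

theorem norm_sq_split {p q : H →L[ℂ] H} (hp : Prj p) (hq : Prj q) (h : p * q = q) (ξ : H) :
    ‖p ξ‖ ^ 2 = ‖q ξ‖ ^ 2 + ‖(p - q) ξ‖ ^ 2 := by
  have h1 := hp.inner_eq ξ
  have h2 := hq.inner_eq ξ
  have h3 := (hp.sub hq h).inner_eq ξ
  rw [sub_apply, inner_sub_left, h1, h2] at h3
  have h4 : ((‖p ξ‖ ^ 2 - ‖q ξ‖ ^ 2 : ℝ) : ℂ) = ((‖p ξ - q ξ‖ ^ 2 : ℝ) : ℂ) := by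
    rw [← h3]; push_cast; ring
  have h5 := Complex.ofReal_injective h4
  rw [sub_apply]
  linarith

theorem rfin_of_le {V : Subgroup B} {p q : H →L[ℂ] H} (hp : Prj p) (hq : Prj q)
    (h : p * q = q) (hr : RFin R V p) : RFin R V q := by
  obtain ⟨C, hC⟩ := hr
  refine ⟨C, fun F ξ => le_trans (Finset.sum_le_sum fun i _ => ?_) (hC F ξ)⟩
  rw [norm_sq_split hp hq h]
  have := sq_nonneg ‖(p - q) (R i.out⁻¹ ξ)‖
  linarith

/-- the value of the average of the translates of a projection -/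
def IsT (R : B →* (H →L[ℂ] H)) (V : Subgroup B) (e : H →L[ℂ] H) (t : ℝ) : Prop :=
  ∀ ζ : H, HasSum (fun q : B ⧸ V => ‖e (R q.out⁻¹ ζ)‖ ^ 2) (t * ‖ζ‖ ^ 2)

theorem qf_prj {e : H →L[ℂ] H} (he : Prj e) (ξ : H) : H144.qf e ξ = ‖e ξ‖ ^ 2 := by
  have h1 := he.inner_eq ξ
  have h2 : ⟪ξ, e ξ⟫_ℂ = ⟪e ξ, ξ⟫_ℂ := (he.inner_left ξ ξ).symm
  change (⟪ξ, e ξ⟫_ℂ).re = _
  rw [h2, h1, Complex.ofReal_re]

theorem Prj.isPositive {e : H →L[ℂ] H} (he : Prj e) : e.IsPositive := by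
  refine (isPositive_iff_complex e).2 fun x => ?_
  rw [he.inner_eq]
  refine ⟨congrArg Complex.ofReal (Complex.ofReal_re _), ?_⟩
  change 0 ≤ ((‖e x‖ ^ 2 : ℝ) : ℂ).re
  rw [Complex.ofReal_re]
  positivity

/-- every nonzero `R`-finite projection has a value `t ≥ 1` -/
theorem exists_t (h : Sys S R W) {U : Subgroup A} {V : Subgroup B}
    (hE : ∀ x ∈ Q S R W U ⊤, ∃ c : ℂ, x = c • (1 : H →L[ℂ] H)) {e : H →L[ℂ] H} (he : Prj e)
    (heQ : e ∈ Q S R W U V) (hne : e ≠ 0) (hr : RFin R V e) : ∃ t : ℝ, 1 ≤ t ∧ IsT R V e t := by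
  obtain ⟨C, hC⟩ := hr
  obtain ⟨ξ, hξ⟩ : ∃ ξ, e ξ ≠ 0 := by
    by_contra hcon
    push Not at hcon
    exact hne (ContinuousLinearMap.ext fun ξ => by simpa using hcon ξ)
  have hpos : 0 < ‖e ξ‖ := norm_pos_iff.2 hξ
  set ξ₀ : H := ((‖e ξ‖⁻¹ : ℝ) : ℂ) • e ξ with hξ₀
  have h0 : ‖ξ₀‖ = 1 := by
    rw [hξ₀, norm_smul, Complex.norm_real, norm_inv, norm_norm, inv_mul_cancel₀ hpos.ne']
  have heξ : e ξ₀ = ξ₀ := by rw [hξ₀, map_smul, he.apply_apply]
  obtain ⟨t, -, -, h1, -, -, h2⟩ := H361.ta0 (R := R) (V := V)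
    (𝒲 := {w | (∃ a ∈ U, w = S a) ∨ w ∈ W}) h.Radj
    (by
      rintro w (⟨a, ha, rfl⟩ | hw) b
      · exact h.SR a b
      · exact h.WR w hw b)
    (fun T hT1 hT2 => hE T ⟨fun a ha => hT2 _ (Or.inl ⟨a, ha, rfl⟩), fun b _ => hT1 b,
      fun w hw => hT2 _ (Or.inr hw)⟩)
    he.isPositive heQ.2.1
    (by
      rintro w (⟨a, ha, rfl⟩ | hw)
      · exact heQ.1 a ha
      · exact heQ.2.2 w hw) h0 (C := C * ‖ξ₀‖ ^ 2)
    (fun F => by
      simp only [qf_prj he]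
      exact hC F ξ₀)
  refine ⟨t, ?_, ?_⟩
  · have h3 := h2 1 ξ₀
    have h4 : (R 1) ξ₀ = ξ₀ := by rw [map_one]; rfl
    rw [h4, qf_prj he, heξ, h0] at h3
    simpa using h3
  · intro ζ
    have h3 := h1 ζ
    simp only [qf_prj he] at h3
    exact h3

theorem IsT.split {V : Subgroup B} {p q : H →L[ℂ] H} {tp tq tr : ℝ} (hp : Prj p) (hq : Prj q)
    (h : p * q = q) (h1 : IsT R V p tp) (h2 : IsT R V q tq) (h3 : IsT R V (p - q) tr)
    (hn : ∃ ζ : H, ζ ≠ 0) : tp = tq + tr := by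
  obtain ⟨ζ, hζ⟩ := hn
  have h4 := (h2 ζ).add (h3 ζ)
  have h5 : (fun i : B ⧸ V => ‖q (R i.out⁻¹ ζ)‖ ^ 2 + ‖(p - q) (R i.out⁻¹ ζ)‖ ^ 2) =
      fun i : B ⧸ V => ‖p (R i.out⁻¹ ζ)‖ ^ 2 := by
    funext i
    rw [norm_sq_split hp hq h]
  rw [h5] at h4
  have h6 := (h1 ζ).unique h4
  rw [← add_mul] at h6
  have h7 : ‖ζ‖ ^ 2 ≠ 0 := by positivity
  exact mul_right_cancel₀ h7 h6

/-- a projection of `𝒬^V` that is not minimal has a proper nonzero subprojection -/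
theorem exists_sub (h : Sys S R W) (hA : GIn cA) {V : Subgroup B} {p : H →L[ℂ] H}
    (hp : p ∈ QV S R W cA V) (hpp : Prj p) (hne : p ≠ 0) (hmin : ¬ MinP S R W cA V p) :
    ∃ q ∈ QV S R W cA V, Prj q ∧ p * q = q ∧ q ≠ 0 ∧ q ≠ p := by
  by_contra hcon
  push Not at hcon
  apply hmin
  refine ⟨hp, hpp, hne, fun x hx => ?_⟩
  obtain ⟨U, hU, h1, h2⟩ := QV_common hA hp hx
  refine spec_Q h hpp h1 (fun q hq h3 h4 => ?_) x h2
  by_contra h5
  push Not at h5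
  exact h5.2 (hcon q ⟨U, hU, hq⟩ h3 h4 h5.1)

/-- **TA-1 (a)**: minimal projections under an `R`-finite projection. -/
theorem exists_minP (h : Sys S R W) (hA : GIn cA)
    (hE : ∀ U ∈ cA, ∀ x ∈ Q S R W U ⊤, ∃ c : ℂ, x = c • (1 : H →L[ℂ] H)) {V : Subgroup B}
    {p : H →L[ℂ] H} (hp : p ∈ QV S R W cA V) (hpp : Prj p) (hne : p ≠ 0) (hr : RFin R V p) :
    ∃ e, MinP S R W cA V e ∧ p * e = e ∧ RFin R V e := by
  have key : ∀ (n : ℕ) (p : H →L[ℂ] H), p ∈ QV S R W cA V → Prj p → p ≠ 0 → RFin R V p →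
      ∀ t, IsT R V p t → t < n + 1 → ∃ e, MinP S R W cA V e ∧ p * e = e ∧ RFin R V e := by
    intro n
    induction n with
    | zero =>
      intro p hp hpp hne hr t ht hlt
      exfalso
      obtain ⟨U, hU, hpU⟩ := hp
      obtain ⟨t', h1, h2⟩ := exists_t h (hE U hU) hpp hpU hne hr
      obtain ⟨ξ, hξ⟩ : ∃ ξ, p ξ ≠ 0 := by
        by_contra hcon
        push Not at hcon
        exact hne (ContinuousLinearMap.ext fun ξ => by simpa using hcon ξ)
      have h3 := (ht (p ξ)).unique (h2 (p ξ))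
      have h4 : ‖p ξ‖ ^ 2 ≠ 0 := by positivity
      have h5 := mul_right_cancel₀ h4 h3
      norm_num at hlt
      linarith
    | succ n ih =>
      intro p hp hpp hne hr t ht hlt
      by_cases hm : MinP S R W cA V p
      · exact ⟨p, hm, hpp.idem, hr⟩
      obtain ⟨q, hq, hqp, hpq, hq0, hqne⟩ := exists_sub h hA hp hpp hne hm
      have hsub : Prj (p - q) := hpp.sub hqp hpq
      have hpsub : p * (p - q) = p - q := by rw [mul_sub, hpp.idem, hpq]
      have hsne : p - q ≠ 0 := fun h0 => hqne (sub_eq_zero.1 h0).symm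
      have hsQ : p - q ∈ QV S R W cA V := QV_sub hA hp hq
      have hrq := rfin_of_le hpp hqp hpq hr
      have hrs := rfin_of_le hpp hsub hpsub hr
      obtain ⟨U, hU, hqU⟩ := hq
      obtain ⟨U', hU', hsU⟩ := hsQ
      obtain ⟨tq, htq1, htq⟩ := exists_t h (hE U hU) hqp hqU hq0 hrq
      obtain ⟨ts, hts1, hts⟩ := exists_t h (hE U' hU') hsub hsU hsne hrs
      obtain ⟨ξ, hξ⟩ : ∃ ξ, p ξ ≠ 0 := by
        by_contra hcon
        push Not at hcon
        exact hne (ContinuousLinearMap.ext fun ξ => by simpa using hcon ξ)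
      have hspl := IsT.split hpp hqp hpq ht htq hts ⟨_, hξ⟩
      obtain ⟨e, he, hqe, hre⟩ := ih q ⟨U, hU, hqU⟩ hqp hq0 hrq tq htq
        (by push_cast at hlt; linarith)
      refine ⟨e, he, ?_, hre⟩
      rw [← hqe, ← mul_assoc, hpq]
  obtain ⟨U, hU, hpU⟩ := hp
  obtain ⟨t, -, ht⟩ := exists_t h (hE U hU) hpp hpU hne hr
  obtain ⟨n, hn⟩ := exists_nat_gt t
  exact key n p ⟨U, hU, hpU⟩ hpp hne hr t ht (by linarith)

/-- **TA-1 (b)**: an `R`-finite projection is a finite sum of minimal projections. -/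
theorem exists_decomp (h : Sys S R W) (hA : GIn cA)
    (hE : ∀ U ∈ cA, ∀ x ∈ Q S R W U ⊤, ∃ c : ℂ, x = c • (1 : H →L[ℂ] H)) {V : Subgroup B}
    {p : H →L[ℂ] H} (hp : p ∈ QV S R W cA V) (hpp : Prj p) (hr : RFin R V p) :
    ∃ l : List (H →L[ℂ] H), (∀ e ∈ l, MinP S R W cA V e) ∧ l.sum = p := by
  have key : ∀ (n : ℕ) (p : H →L[ℂ] H), p ∈ QV S R W cA V → Prj p → p ≠ 0 → RFin R V p →
      ∀ t, IsT R V p t → t < n + 1 →
      ∃ l : List (H →L[ℂ] H), (∀ e ∈ l, MinP S R W cA V e) ∧ l.sum = p := by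
    intro n
    induction n with
    | zero =>
      intro p hp hpp hne hr t ht hlt
      exfalso
      obtain ⟨U, hU, hpU⟩ := hp
      obtain ⟨t', h1, h2⟩ := exists_t h (hE U hU) hpp hpU hne hr
      obtain ⟨ξ, hξ⟩ : ∃ ξ, p ξ ≠ 0 := by
        by_contra hcon
        push Not at hcon
        exact hne (ContinuousLinearMap.ext fun ξ => by simpa using hcon ξ)
      have h3 := (ht (p ξ)).unique (h2 (p ξ))
      have h4 : ‖p ξ‖ ^ 2 ≠ 0 := by positivity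
      have h5 := mul_right_cancel₀ h4 h3
      norm_num at hlt
      linarith
    | succ n ih =>
      intro p hp hpp hne hr t ht hlt
      obtain ⟨e, he, hpe, hre⟩ := exists_minP h hA hE hp hpp hne hr
      have hsub : Prj (p - e) := hpp.sub he.prj hpe
      have hpsub : p * (p - e) = p - e := by rw [mul_sub, hpp.idem, hpe]
      have hsQ : p - e ∈ QV S R W cA V := QV_sub hA hp he.mem
      by_cases hsne : p - e = 0
      · refine ⟨[e], ?_, ?_⟩
        · intro f hf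
          rw [List.mem_singleton] at hf
          rw [hf]; exact he
        · rw [List.sum_singleton]
          exact (sub_eq_zero.1 hsne).symm
      have hrs := rfin_of_le hpp hsub hpsub hr
      obtain ⟨U, hU, hqU⟩ := he.mem
      obtain ⟨U', hU', hsU⟩ := hsQ
      obtain ⟨tq, htq1, htq⟩ := exists_t h (hE U hU) he.prj hqU he.ne hre
      obtain ⟨ts, hts1, hts⟩ := exists_t h (hE U' hU') hsub hsU hsne hrs
      obtain ⟨ξ, hξ⟩ : ∃ ξ, p ξ ≠ 0 := by
        by_contra hcon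
        push Not at hcon
        exact hne (ContinuousLinearMap.ext fun ξ => by simpa using hcon ξ)
      have hspl := IsT.split hpp he.prj hpe ht htq hts ⟨_, hξ⟩
      obtain ⟨l, hl, hsum⟩ := ih (p - e) ⟨U', hU', hsU⟩ hsub hsne hrs ts hts
        (by push_cast at hlt; linarith)
      refine ⟨e :: l, ?_, ?_⟩
      · intro f hf
        rcases List.mem_cons.1 hf with rfl | hf
        · exact he
        · exact hl f hf
      · rw [List.sum_cons, hsum]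
        abel
  by_cases hne : p = 0
  · exact ⟨[], by simp, by simp [hne]⟩
  obtain ⟨U, hU, hpU⟩ := hp
  obtain ⟨t, -, ht⟩ := exists_t h (hE U hU) hpp hpU hne hr
  obtain ⟨n, hn⟩ := exists_nat_gt t
  exact key n p ⟨U, hU, hpU⟩ hpp hne hr t ht (by linarith)

/-- **TA-1 (c)**: the corner between two minimal projections is at most a line. -/
theorem exists_line (h : Sys S R W) (hA : GIn cA) {V : Subgroup B} {e f : H →L[ℂ] H}
    (he : MinP S R W cA V e) (hf : MinP S R W cA V f) :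
    ∃ y ∈ QV S R W cA V, ∀ x ∈ QV S R W cA V, ∃ c : ℂ, e * x * f = c • y := by
  by_cases h0 : ∀ x ∈ QV S R W cA V, e * x * f = 0
  · exact ⟨0, QV_zero hA, fun x hx => ⟨0, by rw [h0 x hx]; simp⟩⟩
  push Not at h0
  obtain ⟨x₀, hx₀, hne⟩ := h0
  refine ⟨e * x₀ * f, QV_mul hA (QV_mul hA he.mem hx₀) hf.mem, fun x hx => ?_⟩
  have hes : star e = e := he.prj.adj
  have hfs : star f = f := hf.prj.adj
  have hx₀s : star x₀ ∈ QV S R W cA V := QV_adj h hx₀
  -- `y y* = c₁ e`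
  obtain ⟨c₁, hc₁⟩ := he.min (x₀ * f * star x₀) (QV_mul hA (QV_mul hA hx₀ hf.mem) hx₀s)
  have hy : (e * x₀ * f) * star (e * x₀ * f) = c₁ • e := by
    rw [← hc₁]
    simp only [star_mul, hes, hfs, mul_assoc]
    rw [← mul_assoc f f, hf.prj.idem]
  have hc₁0 : c₁ ≠ 0 := by
    intro hc
    rw [hc, zero_smul] at hy
    exact hne ((CStarRing.mul_star_self_eq_zero_iff _).1 hy)
  obtain ⟨c₃, hc₃⟩ := hf.min (star x₀ * e * x) (QV_mul hA (QV_mul hA hx₀s he.mem) hx)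
  refine ⟨c₁⁻¹ * c₃, ?_⟩
  have h1 : (c₁ • e) * x * f = c₃ • (e * x₀ * f) := by
    have h2 : (e * x₀ * f) * star (e * x₀ * f) * (x * f) = e * x₀ * (f * (star x₀ * e * x) * f) := by
      simp only [star_mul, hes, hfs, mul_assoc]
      rw [← mul_assoc f f, hf.prj.idem]
    rw [hy, hc₃] at h2
    rw [mul_assoc (c₁ • e) x f, h2, mul_smul_comm]
  rw [smul_mul_assoc, smul_mul_assoc] at h1
  calc e * x * f = c₁⁻¹ • (c₁ • (e * x * f)) := by rw [smul_smul, inv_mul_cancel₀ hc₁0, one_smul]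
    _ = (c₁⁻¹ * c₃) • (e * x₀ * f) := by rw [h1, smul_smul]

theorem corner_row (h : Sys S R W) (hA : GIn cA) {V : Subgroup B} {e : H →L[ℂ] H}
    (he : MinP S R W cA V e) (l' : List (H →L[ℂ] H)) (hl' : ∀ e ∈ l', MinP S R W cA V e) :
    ∃ s' : Finset (H →L[ℂ] H), (∀ y ∈ s', y ∈ QV S R W cA V) ∧
      ∀ x ∈ QV S R W cA V, e * x * l'.sum ∈ Submodule.span ℂ (s' : Set (H →L[ℂ] H)) := by
  classical
  induction l' with
  | nil => exact ⟨∅, by simp, fun x _ => by simp⟩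
  | cons f l' ih' =>
    obtain ⟨s, hs1, hs2⟩ := ih' (fun g hg => hl' g (List.mem_cons_of_mem _ hg))
    obtain ⟨y, hy, hyx⟩ := exists_line h hA he (hl' f List.mem_cons_self)
    refine ⟨insert y s, ?_, fun x hx => ?_⟩
    · intro g hg
      rcases Finset.mem_insert.1 hg with rfl | hg
      · exact hy
      · exact hs1 g hg
    · rw [List.sum_cons, mul_add]
      refine Submodule.add_mem _ ?_ ?_
      · obtain ⟨c, hc⟩ := hyx x hx
        rw [hc]
        exact Submodule.smul_mem _ _ (Submodule.subset_span (by simp))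
      · exact Submodule.span_mono (by simp) (hs2 x hx)

/-- lists of minimal projections: the corner is finite dimensional -/
theorem corner_list (h : Sys S R W) (hA : GIn cA) {V : Subgroup B} (l l' : List (H →L[ℂ] H))
    (hl : ∀ e ∈ l, MinP S R W cA V e) (hl' : ∀ e ∈ l', MinP S R W cA V e) :
    ∃ s : Finset (H →L[ℂ] H), (∀ y ∈ s, y ∈ QV S R W cA V) ∧ ∀ x ∈ QV S R W cA V,
      l.sum * x * l'.sum ∈ Submodule.span ℂ (s : Set (H →L[ℂ] H)) := by
  classical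
  induction l with
  | nil => exact ⟨∅, by simp, fun x _ => by simp⟩
  | cons e l ih =>
    obtain ⟨s, hs1, hs2⟩ := ih (fun f hf => hl f (List.mem_cons_of_mem _ hf))
    obtain ⟨s', hs'1, hs'2⟩ := corner_row h hA (hl e List.mem_cons_self) l' hl'
    refine ⟨s ∪ s', ?_, fun x hx => ?_⟩
    · intro g hg
      rcases Finset.mem_union.1 hg with hg | hg
      · exact hs1 g hg
      · exact hs'1 g hg
    · rw [List.sum_cons, add_mul, add_mul]
      refine Submodule.add_mem _ ?_ ?_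
      · exact Submodule.span_mono (by simp) (hs'2 x hx)
      · exact Submodule.span_mono (by simp) (hs2 x hx)

/-- **TA-1 (d)**: the corner `p 𝒬^V p` of an `R`-finite projection is finite dimensional. -/
theorem fincorner (h : Sys S R W) (hA : GIn cA)
    (hE : ∀ U ∈ cA, ∀ x ∈ Q S R W U ⊤, ∃ c : ℂ, x = c • (1 : H →L[ℂ] H)) {V : Subgroup B}
    {p : H →L[ℂ] H} (hp : p ∈ QV S R W cA V) (hpp : Prj p) (hr : RFin R V p) :
    ∃ s : Finset (H →L[ℂ] H), (∀ y ∈ s, y ∈ QV S R W cA V) ∧ ∀ x ∈ QV S R W cA V,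
      p * x * p ∈ Submodule.span ℂ (s : Set (H →L[ℂ] H)) := by
  obtain ⟨l, hl, rfl⟩ := exists_decomp h hA hE hp hpp hr
  exact corner_list h hA l l hl hl

/-- **TA-1 (e)**: all elements of the corner `p 𝒬^V p` live at a common source level. -/
theorem corner_level (h : Sys S R W) (hA : GIn cA)
    (hE : ∀ U ∈ cA, ∀ x ∈ Q S R W U ⊤, ∃ c : ℂ, x = c • (1 : H →L[ℂ] H)) {V : Subgroup B}
    {p : H →L[ℂ] H} (hp : p ∈ QV S R W cA V) (hpp : Prj p) (hr : RFin R V p) :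
    ∃ U ∈ cA, p ∈ Q S R W U V ∧ ∀ x ∈ QV S R W cA V, p * x * p ∈ Q S R W U V := by
  classical
  obtain ⟨s, hs1, hs2⟩ := fincorner h hA hE hp hpp hr
  have key : ∀ s : Finset (H →L[ℂ] H), (∀ y ∈ s, y ∈ QV S R W cA V) →
      ∃ U ∈ cA, ∀ y ∈ s, y ∈ Q S R W U V := by
    intro s
    induction s using Finset.induction_on with
    | empty => intro _; obtain ⟨U, hU⟩ := hA.ne; exact ⟨U, hU, by simp⟩
    | insert y s hy ih =>
      intro hs
      obtain ⟨U1, hU1, h1⟩ := ih fun z hz => hs z (Finset.mem_insert_of_mem hz)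
      obtain ⟨U2, hU2, h2⟩ := hs y (Finset.mem_insert_self _ _)
      refine ⟨U1 ⊓ U2, hA.inf _ hU1 _ hU2, fun z hz => ?_⟩
      rcases Finset.mem_insert.1 hz with rfl | hz
      · exact H729.Q_mono inf_le_right le_rfl h2
      · exact H729.Q_mono inf_le_left le_rfl (h1 z hz)
  obtain ⟨U1, hU1, h1⟩ := key s hs1
  obtain ⟨U2, hU2, h2⟩ := hp
  refine ⟨U1 ⊓ U2, hA.inf _ hU1 _ hU2, H729.Q_mono inf_le_right le_rfl h2, fun x hx => ?_⟩
  have h3 := hs2 x hx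
  refine Submodule.span_induction (p := fun y _ => y ∈ Q S R W (U1 ⊓ U2) V) ?_ ?_ ?_ ?_ h3
  · intro y hy
    exact H729.Q_mono inf_le_left le_rfl (h1 y hy)
  · exact H729.Q_zero
  · intro x y _ _ hx hy
    exact H729.Q_add hx hy
  · intro c x _ hx
    exact H729.Q_smul c hx

end Vale.Agent.P092.H432.TA
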