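import Vale.Agent.P092.H432.TA.Min

/-!
# From a positive element with finite average to an `R`-finite projection
-/

set_option autoImplicit false
set_option linter.all false

namespace Vale.Agent.P092.H432.TA

open scoped InnerProductSpace
open ContinuousLinearMap

variable {H : Type*} [NormedAddCommGroup H] [InnerProductSpace ℂ H] [CompleteSpace H]
variable {A B : Type*} [Group A] [Group B]
variable {S : A →* (H →L[ℂ] H)} {R : B →* (H →L[ℂ] H)} {W : Set (H →L[ℂ] H)}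
variable {cA : Set (Subgroup A)} {cB : Set (Subgroup B)}

theorem IsPositive.sq_le {x : H →L[ℂ] H} (hx : x.IsPositive) {c : ℝ}
    (hc : ∀ ξ, (⟪x ξ, ξ⟫_ℂ).re ≤ c * ‖ξ‖ ^ 2) (ξ : H) : ‖x ξ‖ ≤ c * ‖ξ‖ ∨ x ξ = 0 := by
  by_cases h0 : x ξ = 0
  · exact Or.inr h0
  left
  -- Cauchy-Schwarz for the form `⟪x ·, ·⟫`
  have h1 : ‖x ξ‖ ^ 2 ≤ c * H144.qf x ξ := by
    refine H144.norm_sq_le hx (fun η => ?_) ξ
    have h2 : ⟪η, x η⟫_ℂ = (starRingEnd ℂ) ⟪x η, η⟫_ℂ := (inner_conj_symm _ _).symm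
    change (⟪η, x η⟫_ℂ).re ≤ _
    rw [h2, Complex.conj_re]
    exact hc η
  have h3 : H144.qf x ξ ≤ ‖x ξ‖ * ‖ξ‖ := by
    change (⟪ξ, x ξ⟫_ℂ).re ≤ _
    calc (⟪ξ, x ξ⟫_ℂ).re ≤ ‖⟪ξ, x ξ⟫_ℂ‖ := Complex.re_le_norm _
      _ ≤ ‖ξ‖ * ‖x ξ‖ := norm_inner_le_norm _ _
      _ = ‖x ξ‖ * ‖ξ‖ := mul_comm _ _
  have hpos : 0 < ‖x ξ‖ := norm_pos_iff.2 h0
  have hξ : 0 < ‖ξ‖ := by
    rw [norm_pos_iff]
    rintro rfl
    exact h0 (map_zero x)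
  have hc0 : 0 ≤ c := by
    have h4 := hc ξ
    have h5 : 0 ≤ (⟪x ξ, ξ⟫_ℂ).re := hx.re_inner_nonneg_left ξ
    by_contra hneg
    push Not at hneg
    have h6 : c * ‖ξ‖ ^ 2 < 0 := mul_neg_of_neg_of_pos hneg (by positivity)
    linarith
  have h7 : ‖x ξ‖ ^ 2 ≤ c * (‖x ξ‖ * ‖ξ‖) := h1.trans (by gcongr)
  have h8 : ‖x ξ‖ * ‖x ξ‖ ≤ ‖x ξ‖ * (c * ‖ξ‖) := by nlinarith
  exact le_of_mul_le_mul_left h8 hpos

/-- A nonzero positive operator dominates a multiple of a nonzero spectral projection. -/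
theorem exists_proj_le {x : H →L[ℂ] H} (hx : x.IsPositive) (hx0 : x ≠ 0) :
    ∃ (p : H →L[ℂ] H) (c : ℝ), 0 < c ∧ Prj p ∧ p ≠ 0 ∧
      (∀ w, w * x = x * w → adjoint w * x = x * adjoint w → w * p = p * w) ∧
      ∀ ξ, c * ‖p ξ‖ ^ 2 ≤ (⟪x ξ, ξ⟫_ℂ).re := by
  have hnx : 0 < ‖x‖ := norm_pos_iff.2 hx0
  set c : ℝ := ‖x‖ / 2 with hc
  have hc0 : 0 < c := by positivity
  have hsx : IsSelfAdjoint x := hx.isSelfAdjoint
  have hs1 : IsSelfAdjoint ((c : ℂ) • (1 : H →L[ℂ] H)) := by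
    rw [IsSelfAdjoint, star_smul, star_one]
    simp
  obtain ⟨P, N, hP, hN, hPN, hNP, hdec, hcP, hcN⟩ := exists_pos_neg _ (hsx.sub hs1)
  have hcomm : ∀ w : H →L[ℂ] H, w * x = x * w →
      w * (x - (c : ℂ) • (1 : H →L[ℂ] H)) = (x - (c : ℂ) • (1 : H →L[ℂ] H)) * w := by
    intro w hw
    rw [mul_sub, sub_mul, hw, mul_smul_comm, smul_mul_assoc, mul_one, one_mul]
  have hval : ∀ ξ, (⟪x ξ, ξ⟫_ℂ).re = (⟪P ξ, ξ⟫_ℂ).re - (⟪N ξ, ξ⟫_ℂ).re + c * ‖ξ‖ ^ 2 := by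
    intro ξ
    have h1 : x = P - N + (c : ℂ) • (1 : H →L[ℂ] H) := by rw [← hdec]; abel
    have h2 : x ξ = P ξ - N ξ + (c : ℂ) • ξ := by
      have := congrArg (fun T : H →L[ℂ] H => T ξ) h1
      exact this
    rw [h2, inner_add_left, inner_sub_left, inner_smul_left, Complex.conj_ofReal,
      inner_self_eq_norm_sq_to_K, Complex.add_re, Complex.sub_re]
    congr 1
    have h3 : ((c : ℂ) * ((‖ξ‖ : ℝ) : ℂ) ^ 2) = ((c * ‖ξ‖ ^ 2 : ℝ) : ℂ) := by push_cast; ring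
    change ((c : ℂ) * ((‖ξ‖ : ℝ) : ℂ) ^ 2).re = _
    rw [h3, Complex.ofReal_re]
  set K := (LinearMap.range (P : H →ₗ[ℂ] H)).topologicalClosure with hK
  have hp := prj_starProjection K
  have hNp : ∀ ξ, N (K.starProjection ξ) = 0 := by
    intro ξ
    have h10 : ∀ η ∈ K, N η = 0 := by
      intro η hη
      have hcl : IsClosed {η : H | N η = 0} := isClosed_eq N.continuous continuous_const
      have hsub : (LinearMap.range (P : H →ₗ[ℂ] H) : Set H) ⊆ {η : H | N η = 0} := by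
        rintro _ ⟨ζ, rfl⟩
        exact congrArg (fun T : H →L[ℂ] H => T ζ) hNP
      exact closure_minimal hsub hcl hη
    exact h10 _ (K.starProjection_apply_mem ξ)
  have hcommp : ∀ w : H →L[ℂ] H, w * x = x * w → adjoint w * x = x * adjoint w →
      w * K.starProjection = K.starProjection * w := fun w h1 h2 =>
    comm_rangeProj P w (hcP w (hcomm w h1)) (hcP _ (hcomm _ h2))
  refine ⟨K.starProjection, c, hc0, hp, ?_, hcommp, ?_⟩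
  · intro h0
    have hP0 : P = 0 := by
      ext1 ξ
      have : P ξ ∈ K := by
        apply Submodule.le_topologicalClosure
        exact ⟨ξ, rfl⟩
      rw [← K.starProjection_eq_self_iff.2 this, h0]
      simp
    have h1 : ∀ ξ, (⟪x ξ, ξ⟫_ℂ).re ≤ c * ‖ξ‖ ^ 2 := by
      intro ξ
      rw [hval, hP0]
      have := hN.re_inner_nonneg_left ξ
      have h2 : (⟪(0 : H →L[ℂ] H) ξ, ξ⟫_ℂ).re = 0 := by simp
      rw [h2]
      have h3 : 0 ≤ (⟪N ξ, ξ⟫_ℂ).re := this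
      linarith
    have h4 : ‖x‖ ≤ c := by
      refine x.opNorm_le_bound hc0.le fun ξ => ?_
      rcases IsPositive.sq_le hx h1 ξ with h | h
      · exact h
      · rw [h, norm_zero]; positivity
    rw [hc] at h4
    linarith
  · intro ξ
    set p := K.starProjection with hpdef
    have hxp : x * p = p * x := (hcommp x rfl (by
      rw [show adjoint x = x from hsx])).symm ▸ rfl
    -- split `ξ = p ξ + (1 - p) ξ`
    have h1 : ⟪x ξ, ξ⟫_ℂ = ⟪x (p ξ), p ξ⟫_ℂ + ⟪x (ξ - p ξ), ξ - p ξ⟫_ℂ := by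
      have h2 : x (p ξ) = p (x ξ) := congrArg (fun T : H →L[ℂ] H => T ξ) hxp
      have h3 : ⟪x (p ξ), p ξ⟫_ℂ = ⟪x (p ξ), ξ⟫_ℂ := by
        rw [h2, ← hp.inner_left (p (x ξ)) ξ, hp.apply_apply]
      have h4 : ⟪x ξ, p ξ⟫_ℂ = ⟪x (p ξ), ξ⟫_ℂ := by
        rw [h2, ← hp.inner_left]
      rw [map_sub, inner_sub_left, inner_sub_right, inner_sub_right, h3, h4]
      ring
    rw [h1, Complex.add_re]
    have h5 : 0 ≤ (⟪x (ξ - p ξ), ξ - p ξ⟫_ℂ).re := hx.re_inner_nonneg_left _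
    have h6 := hval (p ξ)
    rw [hNp ξ] at h6
    have h7 : 0 ≤ (⟪P (p ξ), p ξ⟫_ℂ).re := hP.re_inner_nonneg_left _
    have h8 : (⟪(0 : H), p ξ⟫_ℂ).re = 0 := by simp
    rw [h8] at h6
    linarith

/-- A nonzero positive element of `Q U V` with bounded sums over `B ⧸ V` gives a nonzero
`R`-finite projection in `Q U V`. -/
theorem exists_rfin_prj (h : Sys S R W) {U : Subgroup A} {V : Subgroup B} {x : H →L[ℂ] H}
    (hx : x.IsPositive) (hx0 : x ≠ 0) (hQ : x ∈ Q S R W U V) {C : ℝ}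
    (hC : ∀ (F : Finset (B ⧸ V)) (ξ : H),
      ∑ q ∈ F, (⟪x (R q.out⁻¹ ξ), R q.out⁻¹ ξ⟫_ℂ).re ≤ C * ‖ξ‖ ^ 2) :
    ∃ p ∈ Q S R W U V, Prj p ∧ p ≠ 0 ∧ RFin R V p := by
  obtain ⟨p, c, hc, hp, hp0, hcomm, hle⟩ := exists_proj_le hx hx0
  refine ⟨p, ?_, hp, hp0, c⁻¹ * C, fun F ξ => ?_⟩
  · have hQ' := mem_Q_iff.1 hQ
    exact mem_Q_iff.2 fun w hw => hcomm w (hQ' w hw) (hQ' _ (QX_adj h w hw))
  · have h1 : ∑ q ∈ F, c * ‖p (R q.out⁻¹ ξ)‖ ^ 2 ≤ C * ‖ξ‖ ^ 2 :=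
      (Finset.sum_le_sum fun q _ => hle _).trans (hC F ξ)
    rw [← Finset.mul_sum] at h1
    calc ∑ q ∈ F, ‖p (R q.out⁻¹ ξ)‖ ^ 2 = c⁻¹ * (c * ∑ q ∈ F, ‖p (R q.out⁻¹ ξ)‖ ^ 2) := by
          field_simp
      _ ≤ c⁻¹ * (C * ‖ξ‖ ^ 2) := by gcongr
      _ = c⁻¹ * C * ‖ξ‖ ^ 2 := by ring

/-! ### changing the level -/

theorem norm_level {V : Subgroup B} {e : H →L[ℂ] H} (hR : ∀ b ξ, ‖R b ξ‖ = ‖ξ‖)
    (he : ∀ b ∈ V, R b * e = e * R b) {b c : B} (hbc : b⁻¹ * c ∈ V) (ξ : H) :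
    ‖e (R b⁻¹ ξ)‖ = ‖e (R c⁻¹ ξ)‖ := by
  have h1 : b⁻¹ = (b⁻¹ * c) * c⁻¹ := by group
  have h2 : R b⁻¹ ξ = R (b⁻¹ * c) (R c⁻¹ ξ) := by
    conv_lhs => rw [h1, map_mul]
    rfl
  have h3 : e (R (b⁻¹ * c) (R c⁻¹ ξ)) = R (b⁻¹ * c) (e (R c⁻¹ ξ)) :=
    congrArg (fun T : H →L[ℂ] H => T (R c⁻¹ ξ)) (he _ hbc).symm
  rw [h2, h3, hR]

theorem rfin_level {V V₁ : Subgroup B} {e : H →L[ℂ] H} (hR : ∀ b ξ, ‖R b ξ‖ = ‖ξ‖)
    (he : ∀ b ∈ V, R b * e = e * R b) (hle : V₁ ≤ V) (hidx : V₁.relIndex V ≠ 0)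
    (hr : RFin R V e) : RFin R V₁ e := by
  classical
  obtain ⟨C, hC⟩ := hr
  set eqv := Subgroup.quotientEquivProdOfLE hle with heqv
  have hfi : (V₁.subgroupOf V).FiniteIndex := ⟨hidx⟩
  have hfin : Finite (V ⧸ V₁.subgroupOf V) := inferInstance
  have : Fintype (V ⧸ V₁.subgroupOf V) := Fintype.ofFinite _
  refine ⟨Fintype.card (V ⧸ V₁.subgroupOf V) * C, fun F ξ => ?_⟩
  set g : B ⧸ V → ℝ := fun q => ‖e (R q.out⁻¹ ξ)‖ ^ 2 with hg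
  have h1 : ∀ q : B ⧸ V₁, ‖e (R q.out⁻¹ ξ)‖ ^ 2 = g (eqv q).1 := by
    intro q
    have h2 : ((eqv q).1 : B ⧸ V) = ((q.out : B) : B ⧸ V) := by
      conv_lhs => rw [← QuotientGroup.out_eq' q]
      rfl
    have h3 : q.out⁻¹ * ((eqv q).1).out ∈ V := by
      rw [← QuotientGroup.eq, QuotientGroup.out_eq', h2]
    simp only [hg]
    rw [norm_level hR he h3]
  calc ∑ q ∈ F, ‖e (R q.out⁻¹ ξ)‖ ^ 2 = ∑ q ∈ F, g (eqv q).1 :=
        Finset.sum_congr rfl fun q _ => h1 q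
    _ = ∑ r ∈ F.map eqv.toEmbedding, g r.1 := by rw [Finset.sum_map]; rfl
    _ ≤ ∑ r ∈ (F.image fun q => (eqv q).1) ×ˢ (Finset.univ : Finset (V ⧸ V₁.subgroupOf V)),
          g r.1 := by
        refine Finset.sum_le_sum_of_subset_of_nonneg ?_ fun r _ _ => by positivity
        intro r hr
        obtain ⟨q, hq, rfl⟩ := Finset.mem_map.1 hr
        rw [Finset.mem_product]
        exact ⟨Finset.mem_image.2 ⟨q, hq, rfl⟩, Finset.mem_univ _⟩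
    _ = Fintype.card (V ⧸ V₁.subgroupOf V) * ∑ q ∈ F.image fun q => (eqv q).1, g q := by
        rw [Finset.sum_product]
        simp only [Finset.sum_const, Finset.card_univ, nsmul_eq_mul]
        rw [Finset.mul_sum]
    _ ≤ Fintype.card (V ⧸ V₁.subgroupOf V) * (C * ‖ξ‖ ^ 2) := by
        gcongr
        exact hC _ ξ
    _ = Fintype.card (V ⧸ V₁.subgroupOf V) * C * ‖ξ‖ ^ 2 := by ring

theorem not_rfin_one [Nontrivial H] {V : Subgroup B} (hR : ∀ b ξ, ‖R b ξ‖ = ‖ξ‖)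
    (hidx : V.index = 0) : ¬ RFin R V (1 : H →L[ℂ] H) := by
  rintro ⟨C, hC⟩
  obtain ⟨ξ, hξ⟩ := exists_ne (0 : H)
  have hinf : Infinite (B ⧸ V) := by
    rw [← not_finite_iff_infinite]
    intro hfin
    have := Subgroup.index_ne_zero_of_finite (H := V)
    exact this hidx
  have h1 : 0 < ‖ξ‖ ^ 2 := by positivity
  obtain ⟨n, hn⟩ := exists_nat_gt C
  obtain ⟨F, hF⟩ := Infinite.exists_subset_card_eq (B ⧸ V) n
  have h2 := hC F ξ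
  have h3 : ∑ q ∈ F, ‖(1 : H →L[ℂ] H) (R q.out⁻¹ ξ)‖ ^ 2 = n * ‖ξ‖ ^ 2 := by
    have h4 : ∀ q ∈ F, ‖(1 : H →L[ℂ] H) (R q.out⁻¹ ξ)‖ ^ 2 = ‖ξ‖ ^ 2 := by
      intro q _
      change ‖R q.out⁻¹ ξ‖ ^ 2 = _
      rw [hR]
    rw [Finset.sum_congr rfl h4, Finset.sum_const, hF, nsmul_eq_mul]
  rw [h3] at h2
  have := le_of_mul_le_mul_right h2 h1
  linarith

end Vale.Agent.P092.H432.TA
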