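import Vale.Agent.P092.H432.TA.CAt
import Vale.Agent.P092.SR.Defs
import Vale.Agent.P092.H971.PSL

/-!
# The bridge: a `Leg` gives the abstract setting of Theorem A
-/

set_option autoImplicit false
set_option linter.all false

namespace Vale.Agent.P092.H432.TA

open scoped InnerProductSpace
open ContinuousLinearMap

variable {Γ H H' ℋ : Type} [Group Γ] [Group H] [Group H'] [TopologicalSpace H]
  [TopologicalSpace H'] [NormedAddCommGroup ℋ] [InnerProductSpace ℂ ℋ] [CompleteSpace ℋ]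

/-- the traces on `Γ` of the compact open subgroups -/
def lev (pr : Γ →* H) : Set (Subgroup Γ) :=
  {L : Subgroup Γ | ∃ U : Subgroup H, SR.COS U ∧ L = U.comap pr}

theorem mem_lev {pr : Γ →* H} {U : Subgroup H} (hU : SR.COS U) : U.comap pr ∈ lev pr :=
  ⟨U, hU, rfl⟩

theorem leg_sys {pr : Γ →* H} {pr' : Γ →* H'} {S T : Γ →* (ℋ →L[ℂ] ℋ)} {sc : Set (ℋ →L[ℂ] ℋ)}
    (h : SR.Leg pr pr' S T sc) : Sys S T sc :=
  ⟨h.adjS, h.adjT, h.comm, h.scS, h.scT, h.sc_adj⟩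

theorem Qs_iff {pr : Γ →* H} {pr' : Γ →* H'} {S T : Γ →* (ℋ →L[ℂ] ℋ)} {sc : Set (ℋ →L[ℂ] ℋ)}
    {K' : Subgroup H} {K : Subgroup H'} {x : ℋ →L[ℂ] ℋ} :
    SR.Qs pr pr' S T sc K' K x ↔ x ∈ Q S T sc (K'.comap pr) (K.comap pr') :=
  ⟨fun h => ⟨fun a ha => (h.1 a ha).symm, fun b hb => (h.2.1 b hb).symm,
    fun w hw => (h.2.2 w hw).symm⟩,
   fun h => ⟨fun a ha => (h.1 a ha).symm, fun b hb => (h.2.1 b hb).symm,
    fun w hw => (h.2.2 w hw).symm⟩⟩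

theorem leg_erg {pr : Γ →* H} {pr' : Γ →* H'} {S T : Γ →* (ℋ →L[ℂ] ℋ)} {sc : Set (ℋ →L[ℂ] ℋ)}
    (h : SR.Leg pr pr' S T sc) : Erg S T sc (lev pr) (lev pr') := by
  refine ⟨?_, ?_⟩
  · rintro _ ⟨U, hU, rfl⟩ x hx
    refine h.ergT U hU.2 x (Qs_iff.2 ⟨hx.1, fun b _ => hx.2.1 b (Subgroup.mem_top b), hx.2.2⟩)
  · rintro _ ⟨U, hU, rfl⟩ x hx
    refine h.ergS U hU.2 x (Qs_iff.2 ⟨fun a _ => hx.1 a (Subgroup.mem_top a), hx.2⟩)

theorem leg_fin {pr : Γ →* H} {pr' : Γ →* H'} {S T : Γ →* (ℋ →L[ℂ] ℋ)} {sc : Set (ℋ →L[ℂ] ℋ)}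
    (h : SR.Leg pr pr' S T sc) : ∃ U ∈ lev pr, ∃ V ∈ lev pr', ∃ p ∈ Q S T sc U V,
      Prj p ∧ p ≠ 0 ∧ RFin T V p := by
  obtain ⟨K', K, hK', hK, x, hx, hx0, hxne, c, hc⟩ := h.finT
  have hpos : x.IsPositive := (ContinuousLinearMap.nonneg_iff_isPositive x).1 hx0
  refine ⟨_, mem_lev hK', _, mem_lev hK, ?_⟩
  refine exists_rfin_prj (leg_sys h) hpos hxne (Qs_iff.1 hx) (C := c) fun F ξ => ?_
  have h1 : ∀ η : ℋ, (⟪x η, η⟫_ℂ).re = (⟪η, x η⟫_ℂ).re := by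
    intro η
    rw [← inner_conj_symm η (x η), Complex.conj_re]
  simp only [h1]
  refine sum_le_hasSum F (fun q _ => ?_) (hc ξ)
  rw [← h1]
  exact hpos.re_inner_nonneg_left _

end Vale.Agent.P092.H432.TA
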